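import Mathlib
import Crest.Agent.BoxFlow.Defs

/-!
# S0170, package W8b: rearranging boxes confined to pairwise separated slabs
-/

set_option autoImplicit false

open Crest.Agent.BoxFlow

namespace Crest.Agent.Lead

variable {n : ℕ}

theorem reach_trans' {X Y Z : Conf n} (h1 : Reach X Y) (h2 : Reach Y Z) : Reach X Z := by
  induction h1 with
  | refl X => exact h2
  | translate X i a d hpos hv hZ ih => exact Reach.translate X i a d hpos hv (ih h2)
  | squeeze X i a b r hpos hab hr hv hZ ih => exact Reach.squeeze X i a b r hpos hab hr hv (ih h2)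

/-- Replace box `i` of a configuration. -/
def setBox (X : Conf n) (i : Fin n) (c h : Fin 3 → ℚ) : Conf n :=
  ⟨Function.update X.c i c, Function.update X.h i h⟩

@[simp] lemma setBox_c_self (X : Conf n) (i : Fin n) (c h : Fin 3 → ℚ) :
    (setBox X i c h).c i = c := by simp [setBox]

@[simp] lemma setBox_h_self (X : Conf n) (i : Fin n) (c h : Fin 3 → ℚ) :
    (setBox X i c h).h i = h := by simp [setBox]

lemma setBox_c_ne (X : Conf n) {i i' : Fin n} (c h : Fin 3 → ℚ) (hne : i' ≠ i) :
    (setBox X i c h).c i' = X.c i' := by simp [setBox, hne]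

lemma setBox_h_ne (X : Conf n) {i i' : Fin n} (c h : Fin 3 → ℚ) (hne : i' ≠ i) :
    (setBox X i c h).h i' = X.h i' := by simp [setBox, hne]

@[simp] lemma setBox_setBox (X : Conf n) (i : Fin n) (c h c' h' : Fin 3 → ℚ) :
    setBox (setBox X i c h) i c' h' = setBox X i c' h' := by simp [setBox]

lemma setBox_self (X : Conf n) (i : Fin n) : setBox X i (X.c i) (X.h i) = X := by
  cases X; simp [setBox]

lemma translate_setBox (X : Conf n) (i : Fin n) (c h : Fin 3 → ℚ) (a : Fin 3) (d : ℚ) :
    (setBox X i c h).translate i a d = setBox X i (Function.update c a (c a + d)) h := by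
  simp [Conf.translate, setBox]

lemma squeeze_setBox (X : Conf n) (i : Fin n) (c h : Fin 3 → ℚ) (a b : Fin 3) (r : ℚ) :
    (setBox X i c h).squeeze i a b r =
      setBox X i c (Function.update (Function.update h a (r * h a)) b (h b / r)) := by
  simp [Conf.squeeze, setBox]

lemma pos_setBox {X : Conf n} (hX : X.Pos) (i : Fin n) (c : Fin 3 → ℚ) {h : Fin 3 → ℚ}
    (hh : ∀ j, 0 < h j) : (setBox X i c h).Pos := by
  intro i' j
  by_cases hi : i' = i
  · subst hi; rw [setBox_h_self]; exact hh j
  · rw [setBox_h_ne _ _ _ hi]; exact hX i' j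

lemma pos_update {h : Fin 3 → ℚ} (hh : ∀ j, 0 < h j) (a : Fin 3) {t : ℚ} (ht : 0 < t) :
    ∀ j, 0 < Function.update h a t j := by
  intro j
  by_cases hj : j = a
  · subst hj; rw [Function.update_self]; exact ht
  · rw [Function.update_of_ne hj]; exact hh j

/-- Every box lies in its own slab `|x_s - mid i| ≤ ρ` along the axis `s`. -/
def InSlab (s : Fin 3) (mid : Fin n → ℚ) (ρ : ℚ) (X : Conf n) : Prop :=
  ∀ i, |X.c i s - mid i| + X.h i s ≤ ρ

lemma sep_of_slab {c h c' h' : Fin 3 → ℚ} (s : Fin 3) {m m' ρ : ℚ} (hm : 2 * ρ < |m - m'|)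
    (h1 : |c s - m| + h s ≤ ρ) (h2 : |c' s - m'| + h' s ≤ ρ) : Sep c h c' h' := by
  refine ⟨s, ?_⟩
  have e : m - m' = (m - c s) + (c s - c' s) + (c' s - m') := by ring
  have h3 : |m - m'| ≤ |c s - m| + |c s - c' s| + |c' s - m'| := by
    rw [e]
    calc |m - c s + (c s - c' s) + (c' s - m')|
        ≤ |m - c s + (c s - c' s)| + |c' s - m'| := abs_add_le _ _
      _ ≤ |m - c s| + |c s - c' s| + |c' s - m'| := by
          have := abs_add_le (m - c s) (c s - c' s)
          linarith
      _ = |c s - m| + |c s - c' s| + |c' s - m'| := by rw [abs_sub_comm m (c s)]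
  linarith

section Moves

variable {s : Fin 3} {mid : Fin n → ℚ} {ρ : ℚ}

/-- Translate box `i` along the axis `a` to the coordinate `t`, if the hull stays in the slab. -/
lemma reach_translate_to (hsep : ∀ i i', i ≠ i' → 2 * ρ < |mid i - mid i'|)
    (W : Conf n) (hWpos : W.Pos) (hW : InSlab s mid ρ W) (i : Fin n) (c h : Fin 3 → ℚ)
    (hh : ∀ j, 0 < h j) (a : Fin 3) (t : ℚ)
    (hull : |Function.update c a (c a + (t - c a) / 2) s - mid i|
      + Function.update h a (h a + |t - c a| / 2) s ≤ ρ) :
    Reach (setBox W i c h) (setBox W i (Function.update c a t) h) := by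
  have hP : (setBox W i c h).Pos := pos_setBox hWpos i c hh
  have hv : TransValid (setBox W i c h) i a (t - c a) := by
    intro i' hi'
    have e1 : transHullC (setBox W i c h) i a (t - c a)
        = Function.update c a (c a + (t - c a) / 2) := by simp [transHullC]
    have e2 : transHullH (setBox W i c h) i a (t - c a)
        = Function.update h a (h a + |t - c a| / 2) := by simp [transHullH]
    rw [e1, e2, setBox_c_ne _ _ _ hi', setBox_h_ne _ _ _ hi']
    exact sep_of_slab s (hsep i i' (Ne.symm hi')) hull (hW i')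
  have key := Reach.translate _ i a (t - c a) hP hv (Reach.refl _)
  rw [translate_setBox] at key
  have e : c a + (t - c a) = t := by ring
  rwa [e] at key

/-- Squeeze box `i` in the `(a, b)`-plane so that its half-width along `a` becomes `t`,
if the hull stays in the slab. -/
lemma reach_squeeze_to (hsep : ∀ i i', i ≠ i' → 2 * ρ < |mid i - mid i'|)
    (W : Conf n) (hWpos : W.Pos) (hW : InSlab s mid ρ W) (i : Fin n) (c h : Fin 3 → ℚ)
    (hh : ∀ j, 0 < h j) (a b : Fin 3) (hab : a ≠ b) (t : ℚ) (ht : 0 < t)
    (hull : |c s - mid i| + Function.update (Function.update h a (max (h a) t)) b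
      (max (h b) (h b * h a / t)) s ≤ ρ) :
    Reach (setBox W i c h)
      (setBox W i c (Function.update (Function.update h a t) b (h b * h a / t))) := by
  have hP : (setBox W i c h).Pos := pos_setBox hWpos i c hh
  have ha : h a ≠ 0 := (hh a).ne'
  have hr : 0 < t / h a := div_pos ht (hh a)
  have er1 : t / h a * h a = t := by field_simp
  have er2 : h b / (t / h a) = h b * h a / t := by field_simp
  have hv : SqValid (setBox W i c h) i a b (t / h a) := by
    intro i' hi'
    have e2 : sqHullH (setBox W i c h) i a b (t / h a)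
        = Function.update (Function.update h a (max (h a) t)) b (max (h b) (h b * h a / t)) := by
      simp only [sqHullH, setBox_h_self, er1, er2]
    rw [e2, setBox_c_self, setBox_c_ne _ _ _ hi', setBox_h_ne _ _ _ hi']
    exact sep_of_slab s (hsep i i' (Ne.symm hi')) hull (hW i')
  have key := Reach.squeeze _ i a b (t / h a) hP hab hr hv (Reach.refl _)
  rw [squeeze_setBox, er1, er2] at key
  exact key

lemma fin3_axes : ∀ s : Fin 3, s + 1 ≠ s ∧ s + 2 ≠ s ∧ s + 1 ≠ s + 2 ∧
    ∀ j : Fin 3, j = s ∨ j = s + 1 ∨ j = s + 2 := by decide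

lemma fin3_prod (s : Fin 3) (f : Fin 3 → ℚ) : ∏ j, f j = f s * f (s + 1) * f (s + 2) := by
  fin_cases s <;> simp [Fin.prod_univ_three] <;> ring

/-- Replace one box by a centred box of a different shape with the same volume. -/
lemma reach_setBox (hsep : ∀ i i', i ≠ i' → 2 * ρ < |mid i - mid i'|)
    (W : Conf n) (hWpos : W.Pos) (hW : InSlab s mid ρ W) (i : Fin n) (c' h' : Fin 3 → ℚ)
    (hc' : c' s = mid i) (hh' : ∀ j, 0 < h' j) (hρ : h' s ≤ ρ)
    (hvol : ∏ j : Fin 3, h' j / W.h i j = 1) :
    Reach W (setBox W i c' h') := by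
  obtain ⟨h1s, h2s, h12, hall⟩ := fin3_axes s
  generalize ha₁ : s + 1 = a₁ at h1s h2s h12 hall
  generalize ha₂ : s + 2 = a₂ at h1s h2s h12 hall
  have hv := hvol
  rw [fin3_prod s, ha₁, ha₂] at hv
  generalize hc : W.c i = c at hv
  generalize hh : W.h i = h at hv
  have hpos : ∀ j, 0 < h j := fun j => hh ▸ hWpos i j
  have hslab : |c s - mid i| + h s ≤ ρ := by
    have := hW i
    rwa [hc, hh] at this
  have hhs : h s ≤ ρ := by linarith [abs_nonneg (c s - mid i)]
  -- step 1: translate along `s` to the centre of the slab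
  have st1 : Reach (setBox W i c h) (setBox W i (Function.update c s (mid i)) h) := by
    apply reach_translate_to hsep W hWpos hW i c h hpos s (mid i)
    rw [Function.update_self, Function.update_self]
    have e : c s + (mid i - c s) / 2 - mid i = -((mid i - c s) / 2) := by ring
    rw [e, abs_neg, abs_div, abs_two]
    rw [abs_sub_comm (c s) (mid i)] at hslab
    linarith
  generalize hc1 : Function.update c s (mid i) = c1 at st1
  have c1s : c1 s = mid i := by rw [← hc1, Function.update_self]
  -- step 2: translate along `a₁`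
  have st2 : Reach (setBox W i c1 h) (setBox W i (Function.update c1 a₁ (c' a₁)) h) := by
    apply reach_translate_to hsep W hWpos hW i c1 h hpos a₁ (c' a₁)
    rw [Function.update_of_ne (Ne.symm h1s), Function.update_of_ne (Ne.symm h1s), c1s]
    simpa using hhs
  generalize hc2 : Function.update c1 a₁ (c' a₁) = c2 at st2
  have c2s : c2 s = mid i := by rw [← hc2, Function.update_of_ne (Ne.symm h1s), c1s]
  have c2a : c2 a₁ = c' a₁ := by rw [← hc2, Function.update_self]
  -- step 3: translate along `a₂`
  have st3 : Reach (setBox W i c2 h) (setBox W i (Function.update c2 a₂ (c' a₂)) h) := by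
    apply reach_translate_to hsep W hWpos hW i c2 h hpos a₂ (c' a₂)
    rw [Function.update_of_ne (Ne.symm h2s), Function.update_of_ne (Ne.symm h2s), c2s]
    simpa using hhs
  have c3 : Function.update c2 a₂ (c' a₂) = c' := by
    funext j
    rcases hall j with hj | hj | hj
    · rw [hj, Function.update_of_ne (Ne.symm h2s), c2s, hc']
    · rw [hj, Function.update_of_ne h12, c2a]
    · rw [hj, Function.update_self]
  rw [c3] at st3
  -- step 4: squeeze in the `(s, a₁)`-plane
  have st4 : Reach (setBox W i c' h)
      (setBox W i c' (Function.update (Function.update h s (h' s)) a₁ (h a₁ * h s / h' s))) := by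
    apply reach_squeeze_to hsep W hWpos hW i c' h hpos s a₁ (Ne.symm h1s) (h' s) (hh' s)
    rw [Function.update_of_ne (Ne.symm h1s), Function.update_self, hc', sub_self, abs_zero,
      zero_add]
    exact max_le hhs hρ
  have gpos : ∀ j, 0 < Function.update (Function.update h s (h' s)) a₁ (h a₁ * h s / h' s) j :=
    pos_update (pos_update hpos s (hh' s)) a₁ (div_pos (mul_pos (hpos a₁) (hpos s)) (hh' s))
  have gs : Function.update (Function.update h s (h' s)) a₁ (h a₁ * h s / h' s) s = h' s := by
    rw [Function.update_of_ne (Ne.symm h1s), Function.update_self]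
  have ga₁ : Function.update (Function.update h s (h' s)) a₁ (h a₁ * h s / h' s) a₁
      = h a₁ * h s / h' s := by rw [Function.update_self]
  have ga₂ : Function.update (Function.update h s (h' s)) a₁ (h a₁ * h s / h' s) a₂ = h a₂ := by
    rw [Function.update_of_ne (Ne.symm h12), Function.update_of_ne h2s]
  generalize hg : Function.update (Function.update h s (h' s)) a₁ (h a₁ * h s / h' s) = g
    at st4 gpos gs ga₁ ga₂
  -- step 5: squeeze in the `(a₁, a₂)`-plane
  have st5 : Reach (setBox W i c' g)
      (setBox W i c' (Function.update (Function.update g a₁ (h' a₁)) a₂ (g a₂ * g a₁ / h' a₁))) := by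
    apply reach_squeeze_to hsep W hWpos hW i c' g gpos a₁ a₂ h12 (h' a₁) (hh' a₁)
    rw [Function.update_of_ne (Ne.symm h2s), Function.update_of_ne (Ne.symm h1s), gs, hc',
      sub_self, abs_zero, zero_add]
    exact hρ
  have e5 : Function.update (Function.update g a₁ (h' a₁)) a₂ (g a₂ * g a₁ / h' a₁) = h' := by
    funext j
    rcases hall j with hj | hj | hj
    · rw [hj, Function.update_of_ne (Ne.symm h2s), Function.update_of_ne (Ne.symm h1s), gs]
    · rw [hj, Function.update_of_ne h12, Function.update_self]
    · rw [hj, Function.update_self, ga₂, ga₁]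
      have p1 := hpos s
      have p2 := hpos a₁
      have p3 := hpos a₂
      have q1 := hh' s
      have q2 := hh' a₁
      have q3 := hh' a₂
      have hv' : h' s * h' a₁ * h' a₂ = h s * h a₁ * h a₂ := by
        field_simp at hv
        linarith
      field_simp
      linarith
  rw [e5] at st5
  have st0 : setBox W i c h = W := by rw [← hc, ← hh]; exact setBox_self W i
  rw [st0] at st1
  exact reach_trans' st1 (reach_trans' st2 (reach_trans' st3 (reach_trans' st4 st5)))

end Moves

/-- **Slab reach.** Boxes confined to pairwise separated slabs along one axis `s` can be moved,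
one at a time, to any centred configuration with the same volumes. -/
theorem reach_centered (s : Fin 3) (mid : Fin n → ℚ) (ρ : ℚ)
    (hsep : ∀ i i', i ≠ i' → 2 * ρ < |mid i - mid i'|)
    (Z Z' : Conf n) (hZ : Z.Pos) (hZ' : Z'.Pos) (h1 : ∀ i, |Z.c i s - mid i| + Z.h i s ≤ ρ)
    (h2 : ∀ i, Z'.c i s = mid i ∧ Z'.h i s ≤ ρ)
    (hvol : ∀ i, ∏ j : Fin 3, Z'.h i j / Z.h i j = 1) : Reach Z Z' := by
  let W : ℕ → Conf n := fun m =>
    ⟨fun i => if (i : ℕ) < m then Z'.c i else Z.c i, fun i => if (i : ℕ) < m then Z'.h i else Z.h i⟩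
  have hWpos : ∀ m, (W m).Pos := by
    intro m i j
    simp only [W]
    split_ifs
    · exact hZ' i j
    · exact hZ i j
  have hWslab : ∀ m, InSlab s mid ρ (W m) := by
    intro m i
    simp only [W]
    split_ifs
    · rw [(h2 i).1, sub_self, abs_zero, zero_add]; exact (h2 i).2
    · exact h1 i
  have key : ∀ m, m ≤ n → Reach Z (W m) := by
    intro m
    induction m with
    | zero =>
      intro _
      have e : W 0 = Z := by cases Z; simp [W]
      rw [e]; exact Reach.refl _
    | succ m ih =>
      intro hm
      have hm' : m < n := hm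
      have hv : ∏ j : Fin 3, Z'.h ⟨m, hm'⟩ j / (W m).h ⟨m, hm'⟩ j = 1 := by
        simpa [W] using hvol ⟨m, hm'⟩
      have step := reach_setBox hsep (W m) (hWpos m) (hWslab m) ⟨m, hm'⟩ (Z'.c ⟨m, hm'⟩)
        (Z'.h ⟨m, hm'⟩) (h2 _).1 (hZ' _) (h2 _).2 hv
      have e : setBox (W m) ⟨m, hm'⟩ (Z'.c ⟨m, hm'⟩) (Z'.h ⟨m, hm'⟩) = W (m + 1) := by
        simp only [setBox, W]
        congr 1
        · funext i
          by_cases hi : i = ⟨m, hm'⟩
          · subst hi; simp
          · rw [Function.update_of_ne hi]
            have hne : (i : ℕ) ≠ m := fun h => hi (Fin.ext h)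
            by_cases hlt : (i : ℕ) < m
            · simp [hlt, Nat.lt_succ_of_lt hlt]
            · have : ¬ (i : ℕ) < m + 1 := by omega
              simp [hlt, this]
        · funext i
          by_cases hi : i = ⟨m, hm'⟩
          · subst hi; simp
          · rw [Function.update_of_ne hi]
            have hne : (i : ℕ) ≠ m := fun h => hi (Fin.ext h)
            by_cases hlt : (i : ℕ) < m
            · simp [hlt, Nat.lt_succ_of_lt hlt]
            · have : ¬ (i : ℕ) < m + 1 := by omega
              simp [hlt, this]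
      rw [e] at step
      exact reach_trans' (ih (Nat.le_of_succ_le hm)) step
  have hn : W n = Z' := by cases Z'; simp [W]
  rw [← hn]
  exact key n le_rfl

end Crest.Agent.Lead
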