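import Crest.Agent.Helper2.BoolCompose

/-!
# Oddification and the "no balance" gadget criterion (toolkit for S0085)

For a Boolean function `f` on the variables `β` the *oddification* `oddify f` lives on the
variables `Option β` (`none` is a fresh variable `z`) and is `z * f (z * y)` in sign notation.
Its Fourier–Walsh coefficients are those of `f`, moved to the odd levels: the coefficient at `S` is
`2 * coeff f S.eraseNone` if `S.card` is odd and `0` otherwise (`coeff_oddify`).

Iterating `h ↦ oddify (comp F h)` (helper3's "aged oddification with a fresh variable") gives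
`exists_of_unbalanced_gadget`: a Boolean function `F` (no balance assumption) whose coefficients
above level `d ≥ 2` vanish, with nonnegative mean and level-one sum `> √d`, yields the conclusion of
statement S0085 for every `C > 0`.
-/

set_option autoImplicit false

namespace Crest.Agent.Lead.BoolOdd

open Finset
open Crest.Agent.Helper2.BoolCompose

noncomputable section

lemma sg_beq (a b : Bool) : sg (a == b) = sg a * sg b := by
  cases a <;> cases b <;> simp

lemma beq_beq_self (z b : Bool) : (z == (z == b)) = b := by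
  cases z <;> cases b <;> rfl

section Oddify

variable {β : Type*} [Fintype β] [DecidableEq β]

/-- Oddification `z * f (z * y)`; the fresh variable `z` is `none`. -/
def oddify (f : (β → Bool) → Bool) : (Option β → Bool) → Bool :=
  fun x => (x none == f (fun b => (x none == x (some b))))

/-- The twist `y ↦ z * y` of the cube, an involution. -/
def twist (z : Bool) : (β → Bool) ≃ (β → Bool) where
  toFun y := fun b => (z == y b)
  invFun y := fun b => (z == y b)
  left_inv y := by
    funext b
    exact beq_beq_self z (y b)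
  right_inv y := by
    funext b
    exact beq_beq_self z (y b)

omit [Fintype β] [DecidableEq β] in
lemma chi_twist (z : Bool) (S : Finset β) (y : β → Bool) :
    chi S (fun b => (z == y b)) = sg z ^ S.card * chi S y := by
  unfold chi
  simp only [sg_beq]
  rw [Finset.prod_mul_distrib, Finset.prod_const]

lemma chi_option (S : Finset (Option β)) (x : Option β → Bool) :
    chi S x = (if none ∈ S then sg (x none) else 1) * chi S.eraseNone (fun b => x (some b)) := by
  rw [chi_eq_prod_univ, Fintype.prod_option, chi_eq_prod_univ]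
  congr 1
  refine Finset.prod_congr rfl fun b _ => ?_
  simp only [Finset.mem_eraseNone]

/-- The sign sum that decides which coefficients of the oddification survive. -/
def zsum (S : Finset (Option β)) : ℝ :=
  ∑ z : Bool, sg z * (if none ∈ S then sg z else 1) * sg z ^ S.eraseNone.card

/-- The coefficients of the oddification. -/
lemma coeff_oddify (f : (β → Bool) → Bool) (S : Finset (Option β)) :
    coeff (oddify f) S = zsum S * coeff f S.eraseNone := by
  have h1 : coeff (oddify f) S
      = ∑ p : Bool × (β → Bool),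
          sg p.1 * sg (f (fun b => (p.1 == p.2 b))) *
            ((if none ∈ S then sg p.1 else 1) * chi S.eraseNone p.2) := by
    unfold coeff
    refine Fintype.sum_equiv (Equiv.piOptionEquivProd (β := fun _ : Option β => Bool)) _ _
      fun x => ?_
    rw [chi_option]
    simp only [oddify, sg_beq, Equiv.piOptionEquivProd_apply]
  rw [h1, Fintype.sum_prod_type]
  unfold zsum
  rw [Finset.sum_mul]
  refine Finset.sum_congr rfl fun z _ => ?_
  -- substitute `y = z * y'`
  rw [← (twist (β := β) z).sum_comp]
  have h2 : ∀ y : β → Bool,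
      sg z * sg (f (fun b => (z == (twist (β := β) z) y b))) *
          ((if none ∈ S then sg z else 1) * chi S.eraseNone ((twist (β := β) z) y))
        = sg z * (if none ∈ S then sg z else 1) * sg z ^ S.eraseNone.card *
            (sg (f y) * chi S.eraseNone y) := by
    intro y
    have e1 : (fun b => (z == (twist (β := β) z) y b)) = y := by
      funext b
      exact beq_beq_self z (y b)
    have e2 : chi S.eraseNone ((twist (β := β) z) y) = sg z ^ S.eraseNone.card * chi S.eraseNone y :=
      chi_twist z _ y
    rw [e1, e2]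
    ring
  simp only [h2]
  rw [← Finset.mul_sum]
  rfl

lemma zsum_empty : zsum (∅ : Finset (Option β)) = 0 := by
  simp [zsum]

lemma zsum_singleton_none : zsum ({none} : Finset (Option β)) = 2 := by
  have h : (({none} : Finset (Option β))).eraseNone = ∅ := by
    ext b
    simp [Finset.mem_eraseNone]
  simp [zsum, h]
  norm_num

lemma zsum_singleton_some (b : β) : zsum ({some b} : Finset (Option β)) = 2 := by
  have h : (({some b} : Finset (Option β))).eraseNone = {b} := by
    ext c
    simp [Finset.mem_eraseNone, eq_comm]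
  simp [zsum, h]
  norm_num

/-- The oddification is balanced. -/
theorem balanced_oddify (f : (β → Bool) → Bool) : coeff (oddify f) ∅ = 0 := by
  rw [coeff_oddify, zsum_empty, zero_mul]

/-- The oddification raises the degree bound by at most one. -/
theorem degLE_oddify {f : (β → Bool) → Bool} {D : ℕ} (hf : DegLE f D) :
    DegLE (oddify f) (D + 1) := by
  intro S hS
  rw [coeff_oddify]
  have hc : D < S.eraseNone.card := by
    by_cases hn : none ∈ S
    · rw [Finset.card_eraseNone_of_mem hn]
      omega
    · rw [Finset.card_eraseNone_of_not_mem hn]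
      omega
  rw [hf _ hc, mul_zero]

/-- The level-one sum of the oddification: the mean of `f` is added. -/
theorem Wsum_oddify (f : (β → Bool) → Bool) :
    Wsum (oddify f) = Wsum f + coeff f ∅ / 2 ^ Fintype.card β := by
  unfold Wsum
  rw [Fintype.sum_option, Fintype.card_option]
  have h0 : coeff (oddify f) {none} = 2 * coeff f ∅ := by
    rw [coeff_oddify, zsum_singleton_none]
    congr 1
  have h1 : ∀ b : β, coeff (oddify f) {some b} = 2 * coeff f {b} := by
    intro b
    rw [coeff_oddify, zsum_singleton_some]
    congr 1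
  rw [h0, Finset.sum_congr rfl fun b _ => by rw [h1 b]]
  have hp : (2 : ℝ) ^ (Fintype.card β + 1) = 2 * 2 ^ Fintype.card β := by ring
  rw [hp, ← Finset.sum_div, ← Finset.sum_div, ← Finset.mul_sum]
  have h2 : (2 : ℝ) ^ Fintype.card β ≠ 0 := by positivity
  field_simp
  ring

end Oddify

section CompMean

variable {α β : Type*} [Fintype α] [DecidableEq α] [Fintype β] [DecidableEq β]

/-- The mean of a composition with a balanced inner function has the sign of the mean of the
outer function. -/
theorem coeff_comp_empty_nonneg {g : (α → Bool) → Bool} {h : (β → Bool) → Bool}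
    (hg : 0 ≤ coeff g ∅) (hh : coeff h ∅ = 0) : 0 ≤ coeff (comp g h) ∅ := by
  rw [coeff_comp]
  refine div_nonneg (Finset.sum_nonneg fun T _ => ?_) (by positivity)
  have hfib : ∀ a : α, fib (∅ : Finset (α × β)) a = ∅ := by
    intro a
    ext b
    simp [mem_fib]
  by_cases hT : T = ∅
  · subst hT
    refine mul_nonneg hg (Finset.prod_nonneg fun a _ => ?_)
    simp [hfib]
  · obtain ⟨a, ha⟩ := Finset.nonempty_iff_ne_empty.mpr hT
    have : ∏ a, (if a ∈ T then coeff h (fib (∅ : Finset (α × β)) a)
        else if fib (∅ : Finset (α × β)) a = ∅ then (2 : ℝ) ^ Fintype.card β else 0) = 0 := by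
      refine Finset.prod_eq_zero (Finset.mem_univ a) ?_
      simp [ha, hfib, hh]
    rw [this, mul_zero]

end CompMean

section Iterate

variable {α : Type*} [Fintype α] [DecidableEq α]

/-- The degree bounds of the iteration: `D 0 = 1`, `D (k+1) = d * D k + 1`. -/
def Dseq (d : ℕ) : ℕ → ℕ
  | 0 => 1
  | k + 1 => d * Dseq d k + 1

lemma Dseq_bound (d : ℕ) (hd : 2 ≤ d) : ∀ k : ℕ, Dseq d k + 1 ≤ 2 * d ^ k
  | 0 => by simp [Dseq]
  | k + 1 => by
    have ih := Dseq_bound d hd k
    have h1 : d * (Dseq d k + 1) ≤ d * (2 * d ^ k) := Nat.mul_le_mul_left d ih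
    simp only [Dseq]
    have h2 : d * (2 * d ^ k) = 2 * d ^ (k + 1) := by ring
    nlinarith

/-- The iteration `h ↦ oddify (comp F h)`, started from a dictator, reindexed to `Fin n`. -/
theorem exists_odd_iter (F : (α → Bool) → Bool) (d : ℕ) (hdeg : DegLE F d)
    (hmu : 0 ≤ coeff F ∅) (hW : 0 ≤ Wsum F) (k : ℕ) :
    ∃ (n : ℕ) (f : (Fin n → Bool) → Bool),
      coeff f ∅ = 0 ∧ DegLE f (Dseq d k) ∧ Wsum F ^ k ≤ Wsum f := by
  induction k with
  | zero =>
    refine ⟨1, fun x => x 0, ?_, ?_, ?_⟩
    · unfold coeff chi
      rw [← (Equiv.funUnique (Fin 1) Bool).symm.sum_comp]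
      simp
    · intro S hS
      have : S.card ≤ 1 := by
        have := Finset.card_le_univ S
        simpa using this
      simp only [Dseq] at hS
      omega
    · have h1 : Wsum (fun x : Fin 1 → Bool => x 0) = 1 := by
        unfold Wsum coeff chi
        simp only [Finset.univ_unique, Fin.default_eq_zero, Fin.isValue, Finset.sum_singleton,
          Finset.prod_singleton, Fintype.card_fin, pow_one]
        rw [← (Equiv.funUnique (Fin 1) Bool).symm.sum_comp]
        simp
      rw [h1, pow_zero]
  | succ k ih =>
    obtain ⟨n, f, hfb, hfd, hfW⟩ := ih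
    refine ⟨Fintype.card (Option (α × Fin n)),
      reindex (Fintype.equivFin (Option (α × Fin n))) (oddify (comp F f)), ?_, ?_, ?_⟩
    · exact balanced_reindex _ (balanced_oddify _)
    · exact degLE_reindex _ (degLE_oddify (degLE_comp hdeg hfd hfb))
    · rw [Wsum_reindex, Wsum_oddify, Wsum_comp F f hfb, pow_succ']
      have h1 : 0 ≤ coeff (comp F f) ∅ / 2 ^ Fintype.card (α × Fin n) :=
        div_nonneg (coeff_comp_empty_nonneg hmu hfb) (by positivity)
      have h2 : Wsum F * Wsum F ^ k ≤ Wsum F * Wsum f := mul_le_mul_of_nonneg_left hfW hW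
      linarith

/-- **Gadget criterion for S0085 without balance.** A Boolean function `F` with all Fourier–Walsh
coefficients above level `d ≥ 2` vanishing, nonnegative mean and level-one sum `> √d` yields, for
every `C > 0`, a witness of statement S0085 (in its literal form). -/
theorem exists_of_unbalanced_gadget (F : (α → Bool) → Bool) (d : ℕ) (hd : 2 ≤ d)
    (hdeg : DegLE F d) (hmu : 0 ≤ coeff F ∅) (hW : Real.sqrt d < Wsum F) (C : ℝ) (hC : 0 < C) :
    ∃ n : ℕ, ∃ f : (Fin n → Bool) → Bool, ∃ e : ℕ,
      (∃ x y, f x ≠ f y) ∧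
      (∀ S : Finset (Fin n), e < S.card →
        ∑ x : Fin n → Bool, ((if f x then (1 : ℝ) else -1) *
          ∏ i ∈ S, (if x i then (1 : ℝ) else -1)) = 0) ∧
      C * Real.sqrt e <
        ∑ i : Fin n, (∑ x : Fin n → Bool, ((if f x then (1 : ℝ) else -1) *
          (if x i then (1 : ℝ) else -1))) / 2 ^ n := by
  set w := Wsum F with hw
  set r := Real.sqrt d with hr
  have hr0 : 0 ≤ r := Real.sqrt_nonneg _
  have hw0 : 0 < w := lt_of_le_of_lt hr0 hW
  have hC2 : 0 < C * Real.sqrt 2 := mul_pos hC (Real.sqrt_pos.mpr (by norm_num))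
  -- choose `k` with `(C * √2) * r ^ k < w ^ k`
  have hk : ∃ k : ℕ, (C * Real.sqrt 2) * r ^ k < w ^ k := by
    have hlt : r / w < 1 := (div_lt_one hw0).mpr hW
    obtain ⟨k, hk⟩ := exists_pow_lt_of_lt_one (inv_pos.mpr hC2) hlt
    refine ⟨k, ?_⟩
    rw [div_pow] at hk
    have hwk : 0 < w ^ k := pow_pos hw0 k
    rw [div_lt_iff₀ hwk] at hk
    have := mul_lt_mul_of_pos_left hk hC2
    rw [← mul_assoc, mul_inv_cancel₀ hC2.ne', one_mul] at this
    linarith
  obtain ⟨k, hk⟩ := hk
  obtain ⟨n, f, -, hfd, hfW⟩ := exists_odd_iter F d hdeg hmu hw0.le k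
  refine ⟨n, f, Dseq d k, ?_, ?_, ?_⟩
  · by_contra hcon
    push Not at hcon
    have h0 := Wsum_eq_zero_of_const f hcon
    rw [h0] at hfW
    exact absurd hfW (not_le.mpr (pow_pos hw0 k))
  · intro S hS
    exact hfd S hS
  · have hWf : Wsum f = ∑ i : Fin n, (∑ x : Fin n → Bool, ((if f x then (1 : ℝ) else -1) *
          (if x i then (1 : ℝ) else -1))) / 2 ^ n := by
      unfold Wsum coeff chi
      simp only [Finset.prod_singleton, Fintype.card_fin]
      rfl
    rw [← hWf]
    have hD : ((Dseq d k : ℕ) : ℝ) ≤ 2 * (d : ℝ) ^ k := by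
      have h1 := Dseq_bound d hd k
      have h2 : ((Dseq d k + 1 : ℕ) : ℝ) ≤ ((2 * d ^ k : ℕ) : ℝ) := by exact_mod_cast h1
      push_cast at h2
      linarith
    have hsq : Real.sqrt (2 * (d : ℝ) ^ k) = Real.sqrt 2 * r ^ k := by
      rw [Real.sqrt_mul (by norm_num : (0 : ℝ) ≤ 2)]
      congr 1
      rw [Real.sqrt_eq_iff_mul_self_eq (by positivity) (by positivity)]
      rw [← mul_pow, hr, Real.mul_self_sqrt (Nat.cast_nonneg _)]
    calc C * Real.sqrt (Dseq d k : ℝ) ≤ C * Real.sqrt (2 * (d : ℝ) ^ k) :=
          mul_le_mul_of_nonneg_left (Real.sqrt_le_sqrt hD) hC.le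
      _ = (C * Real.sqrt 2) * r ^ k := by rw [hsq]; ring
      _ < w ^ k := hk
      _ ≤ Wsum f := hfW

end Iterate

end

end Crest.Agent.Lead.BoolOdd
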