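import Crest.Agent.Lead.BoolOdd
import Crest.Agent.Helper2.BoolTable

/-!
# Truth-table front end for the "no balance" gadget criterion (toolkit for S0085)

`exists_of_table_unbalanced`: if the Boolean function with truth table `T` on `n` variables (in the
conventions of `Crest.Agent.Helper2.BoolTable`) has all Fourier–Walsh coefficients above level
`d ≥ 2` vanishing, nonnegative mean, and the sum `s` of its singleton coefficients satisfies
`d * 4^n < (s * 2^n)^2` (with `s > 0`), all three facts being checked on the packed Walsh transform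
`pk` by `decide +kernel`, then the conclusion of S0085 holds.  No balance is required.
-/

set_option autoImplicit false

namespace Crest.Agent.Lead.BoolOddTable

open Finset
open Crest.Agent.Helper2.BoolCompose
open Crest.Agent.Helper2.BoolTable
open Crest.Agent.Lead.BoolOdd

/-- Nonnegative mean, read off the field of the empty set. -/
theorem nonneg_of_mod (n T : ℕ) (hmu : 2 ^ n ≤ pk (2 ^ (n + 2)) n T % 2 ^ (n + 2)) :
    0 ≤ coeff (ofT n T) ∅ := by
  rw [pk_eq_pack _ (by positivity), pack_mod_base, Nat.mod_eq_of_lt (uN_lt_base n _ _)] at hmu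
  have h2 := uN_cast (ofT n T) ∅
  rw [coeff_eq_cast]
  have h3 : (0 : ℤ) ≤ coeffZ (ofT n T) ∅ := by
    have h4 : ((2 ^ n : ℕ) : ℤ) ≤ ((uN (ofT n T) ∅ : ℕ) : ℤ) := by exact_mod_cast hmu
    rw [h2] at h4
    push_cast at h4
    linarith
  exact_mod_cast h3

/-- The level-one sum exceeds `√d`, read off the singleton fields. -/
theorem sqrt_lt_Wsum_of_sing (n d T : ℕ)
    (hW : d * 4 ^ n < (sing (2 ^ (n + 2)) n (pk (2 ^ (n + 2)) n T) - n * 2 ^ n) ^ 2) :
    Real.sqrt d < Wsum (ofT n T) := by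
  rw [Wsum_of_sing]
  set s := sing (2 ^ (n + 2)) n (pk (2 ^ (n + 2)) n T) with hs
  have hpos : n * 2 ^ n < s := by
    by_contra hcon
    have h0 : s - n * 2 ^ n = 0 := Nat.sub_eq_zero_of_le (not_lt.mp hcon)
    rw [h0] at hW
    simp at hW
  have hsub : ((s - n * 2 ^ n : ℕ) : ℝ) = (s : ℝ) - n * 2 ^ n := by
    rw [Nat.cast_sub hpos.le]
    push_cast
    ring
  have hW' : ((d * 4 ^ n : ℕ) : ℝ) < (((s - n * 2 ^ n) ^ 2 : ℕ) : ℝ) := by exact_mod_cast hW
  rw [Nat.cast_pow, hsub] at hW'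
  push_cast at hW'
  have h2n : (0 : ℝ) < 2 ^ n := by positivity
  have hnum : (0 : ℝ) < (s : ℝ) - n * 2 ^ n := by
    have : ((n * 2 ^ n : ℕ) : ℝ) < (s : ℝ) := by exact_mod_cast hpos
    push_cast at this
    linarith
  rw [Real.sqrt_lt' (div_pos hnum h2n), div_pow, lt_div_iff₀ (by positivity)]
  have h4 : ((2 : ℝ) ^ n) ^ 2 = 4 ^ n := by
    rw [← pow_mul, mul_comm, pow_mul]
    norm_num
  rw [h4]
  exact hW'

/-- **Truth-table gadget criterion for S0085 without balance.** -/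
theorem exists_of_table_unbalanced (n d T : ℕ) (hd : 2 ≤ d)
    (hdeg : chk (2 ^ (n + 2)) (2 ^ n) n d (pk (2 ^ (n + 2)) n T) = true)
    (hmu : 2 ^ n ≤ pk (2 ^ (n + 2)) n T % 2 ^ (n + 2))
    (hW : d * 4 ^ n < (sing (2 ^ (n + 2)) n (pk (2 ^ (n + 2)) n T) - n * 2 ^ n) ^ 2)
    (C : ℝ) (hC : 0 < C) :
    ∃ m : ℕ, ∃ f : (Fin m → Bool) → Bool, ∃ e : ℕ,
      (∃ x y, f x ≠ f y) ∧
      (∀ S : Finset (Fin m), e < S.card →
        ∑ x : Fin m → Bool, ((if f x then (1 : ℝ) else -1) *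
          ∏ i ∈ S, (if x i then (1 : ℝ) else -1)) = 0) ∧
      C * Real.sqrt e <
        ∑ i : Fin m, (∑ x : Fin m → Bool, ((if f x then (1 : ℝ) else -1) *
          (if x i then (1 : ℝ) else -1))) / 2 ^ m :=
  exists_of_unbalanced_gadget (ofT n T) d hd (degLE_of_chk n d T hdeg) (nonneg_of_mod n T hmu)
    (sqrt_lt_Wsum_of_sing n d T hW) C hC

end Crest.Agent.Lead.BoolOddTable
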