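import Mathlib
import Crest.Agent.BoxFlow.Defs
import Crest.Agent.Lead.BoxFlowEff
import Crest.Agent.Helper3.BoxFlowGevrey
import Crest.Agent.Helper4.BoxFlowGevreyAlg
import Crest.Agent.Helper4.BoxFlowSigma

/-!
# S0170, package W4: closure properties of `Eff1` (effective smooth functions of one variable)
-/

set_option autoImplicit false

open scoped ContDiff
open Crest.Agent.BoxFlow

namespace Crest.Agent.Lead

variable {f g : ℝ → ℝ}

/-- A Gevrey bound gives a uniform bound. -/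
lemma abs_le_of_gevrey {a c : ℕ} (h : GevreyBound f a c) (x : ℝ) : |f x| ≤ (a : ℝ) := by
  have := h 0 x
  simpa using this

theorem eff1_derivApprox (hf : Eff1 f) : DerivApprox f := by
  obtain ⟨a, c, hac⟩ := hf.gevrey
  exact derivApprox_of_gevrey hf.smooth hac hf.approx

theorem eff1_sigma : Eff1 Real.smoothTransition :=
  ⟨Real.smoothTransition.contDiff, Crest.Agent.Helper3.gevrey_smoothTransition,
    Crest.Agent.Helper4.smoothTransition_valApprox⟩

theorem eff1_const (q : ℚ) : Eff1 (fun _ => (q : ℝ)) :=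
  ⟨contDiff_const, Crest.Agent.Helper4.gevrey_const q, valApprox_const q⟩

theorem eff1_add (hf : Eff1 f) (hg : Eff1 g) : Eff1 (fun x => f x + g x) :=
  ⟨hf.smooth.add hg.smooth,
    Crest.Agent.Helper4.gevrey_add hf.smooth hg.smooth hf.gevrey hg.gevrey,
    valApprox_add hf.approx hg.approx⟩

theorem eff1_neg (hf : Eff1 f) : Eff1 (fun x => -f x) :=
  ⟨hf.smooth.neg, Crest.Agent.Helper4.gevrey_neg hf.smooth hf.gevrey, valApprox_neg hf.approx⟩

theorem eff1_sub (hf : Eff1 f) (hg : Eff1 g) : Eff1 (fun x => f x - g x) := by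
  have := eff1_add hf (eff1_neg hg)
  simpa only [sub_eq_add_neg] using this

theorem eff1_mul (hf : Eff1 f) (hg : Eff1 g) : Eff1 (fun x => f x * g x) := by
  obtain ⟨a, c, hac⟩ := hf.gevrey
  obtain ⟨b, d, hbd⟩ := hg.gevrey
  exact ⟨hf.smooth.mul hg.smooth,
    Crest.Agent.Helper4.gevrey_mul hf.smooth hg.smooth hf.gevrey hg.gevrey,
    valApprox_mul (abs_le_of_gevrey hac) (abs_le_of_gevrey hbd) hf.approx hg.approx⟩

theorem eff1_const_mul (q : ℚ) (hf : Eff1 f) : Eff1 (fun x => (q : ℝ) * f x) :=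
  ⟨contDiff_const.mul hf.smooth, Crest.Agent.Helper4.gevrey_const_mul q hf.smooth hf.gevrey,
    valApprox_const_mul q hf.approx⟩

theorem eff1_comp_affine (p q : ℚ) (hf : Eff1 f) :
    Eff1 (fun x => f ((p : ℝ) * x + (q : ℝ))) :=
  ⟨hf.smooth.comp ((contDiff_const.mul contDiff_id).add contDiff_const),
    Crest.Agent.Helper4.gevrey_comp_affine p q hf.smooth hf.gevrey,
    valApprox_comp_affine p q hf.approx⟩

theorem eff1_deriv (hf : Eff1 f) : Eff1 (deriv f) :=
  ⟨(contDiff_infty_iff_deriv.mp hf.smooth).2,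
    Crest.Agent.Helper4.gevrey_deriv hf.smooth hf.gevrey,
    valApprox_deriv_of_derivApprox (eff1_derivApprox hf)⟩

theorem eff1_div (G : ℕ) (hG : 0 < G) (hlow : ∀ x, 1 / (G : ℝ) ≤ g x) (hf : Eff1 f)
    (hg : Eff1 g) : Eff1 (fun x => f x / g x) := by
  obtain ⟨a, c, hac⟩ := hf.gevrey
  have hG' : (0 : ℝ) < (G : ℝ) := by exact_mod_cast hG
  exact ⟨hf.smooth.div hg.smooth (fun x => (lt_of_lt_of_le (by positivity) (hlow x)).ne'),
    Crest.Agent.Helper4.gevrey_div G hG hf.smooth hg.smooth hlow hf.gevrey hg.gevrey,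
    valApprox_div G hG hlow (abs_le_of_gevrey hac) hf.approx hg.approx⟩

theorem eff1_sub_mul (q : ℚ) (R : ℕ) (hR : ∀ x, (R : ℝ) < |x| → f x = 0) (hf : Eff1 f) :
    Eff1 (fun x => (x - (q : ℝ)) * f x) :=
  ⟨(contDiff_id.sub contDiff_const).mul hf.smooth,
    Crest.Agent.Helper4.gevrey_sub_mul q R hf.smooth hR hf.gevrey,
    valApprox_sub_mul q hf.approx⟩

end Crest.Agent.Lead
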