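import Mathlib
import Crest.Agent.BoxFlow.Defs
import Crest.Agent.Lead.BoxFlowEff1
import Crest.Agent.Helper3.BoxFlowEffective
import Crest.Agent.Helper4.BoxFlowRatOps
import Crest.Agent.Helper7.BoxFlowCompose

/-!
# S0170: the hypothesis bundle `Kit` of helper7's packages, instantiated
-/

set_option autoImplicit false

open scoped ContDiff
open Crest.AnalysisR.BoxFlow Crest.Agent.BoxFlow

namespace Crest.Agent.Lead

/-- Computable rational arithmetic, in the bundle used by helper3's package W5. -/
theorem ratOps : Crest.Agent.Helper3.RatOps :=
  ⟨Crest.Agent.Helper4.rat_add, Crest.Agent.Helper4.rat_mul, Crest.Agent.Helper4.rat_neg⟩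

/-- All facts about effective one-dimensional functions and stream-function fields that the
elementary moves and the composition lemma use. -/
theorem theKit : Crest.Agent.Helper7.Kit where
  sigma := eff1_sigma
  const := eff1_const
  add := eff1_add
  mul := eff1_mul
  const_mul := fun q _ hf => eff1_const_mul q hf
  comp_affine := fun p q _ hf => eff1_comp_affine p q hf
  deriv := eff1_deriv
  div := fun G _ _ hG hlow hf hg => eff1_div G hG hlow hf hg
  sub_mul := fun q R _ hR hf => eff1_sub_mul q R hR hf
  stream_contDiff := fun a b hm hf => Crest.Agent.Helper3.streamField_contDiff hm hf a b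
  stream_effective := fun a b hm hf =>
    Crest.Agent.Helper3.stream_effective_of ratOps (fun _ hg => eff1_derivApprox hg) hm hf a b
  stream_div := fun _ _ hab hm hf => Crest.Agent.Helper3.streamField_spaceDiv hm hf hab
  effective_add := Crest.Agent.Helper3.effective_add ratOps
  effective_zero := Crest.Agent.Helper3.effective_zero

end Crest.Agent.Lead
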