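import Mathlib
import Crest.Agent.Helper9.Area
import Crest.Agent.Helper9.Proj

/-!
# Row 211, package G4 (lead): every regular tetrahedron is a similarity image of the standard one

`exists_similarity`: for `w : Fin 4 → E3` with all pairwise distances `ℓ > 0` there are a linear
isometry equivalence `A` and a point `c₀` with
`(fun x => c₀ + (ℓ / 2) • A x) '' K0 = convexHull ℝ (Set.range w)`,
`K0 = convexHull ℝ {(1,0,0), (-1,0,0), (0,1,√2), (0,-1,√2)}`.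
-/

set_option autoImplicit false
open MeasureTheory
open scoped ENNReal

namespace Crest.Agent.Lead

open Crest.Agent.Helper9.Area (E3)

theorem norm_comb3 (t₁ t₂ t₃ : E3) (h11 : inner ℝ t₁ t₁ = (4 : ℝ)) (h22 : inner ℝ t₂ t₂ = (4 : ℝ))
    (h33 : inner ℝ t₃ t₃ = (4 : ℝ)) (h12 : inner ℝ t₁ t₂ = (2 : ℝ)) (h13 : inner ℝ t₁ t₃ = (2 : ℝ))
    (h23 : inner ℝ t₂ t₃ = (2 : ℝ)) (α β γ : ℝ) :
    ‖α • t₁ + β • t₂ + γ • t₃‖ ^ 2 = 4 * (α ^ 2 + β ^ 2 + γ ^ 2 + α * β + α * γ + β * γ) := by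
  have h21 : inner ℝ t₂ t₁ = (2 : ℝ) := by rw [real_inner_comm]; exact h12
  have h31 : inner ℝ t₃ t₁ = (2 : ℝ) := by rw [real_inner_comm]; exact h13
  have h32 : inner ℝ t₃ t₂ = (2 : ℝ) := by rw [real_inner_comm]; exact h23
  rw [← real_inner_self_eq_norm_sq]
  simp only [inner_add_left, inner_add_right, inner_smul_left, inner_smul_right, conj_trivial,
    h11, h22, h33, h12, h13, h23, h21, h31, h32]
  ring

/-- the linear map with `b₁ ↦ t₁`, `b₂ ↦ t₂`, `b₃ ↦ t₃`, where `b₁ = (-2,0,0)`, `b₂ = (-1,1,√2)`,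
`b₃ = (-1,-1,√2)` -/
noncomputable def simLin (t₁ t₂ t₃ : E3) : E3 →ₗ[ℝ] E3 where
  toFun x := (-(x 0 + x 2 / Real.sqrt 2) / 2) • t₁ + ((x 2 / Real.sqrt 2 + x 1) / 2) • t₂
    + ((x 2 / Real.sqrt 2 - x 1) / 2) • t₃
  map_add' x y := by
    simp only [PiLp.add_apply]
    module
  map_smul' c x := by
    simp only [PiLp.smul_apply, smul_eq_mul, RingHom.id_apply]
    module

theorem simLin_apply (t₁ t₂ t₃ x : E3) :
    simLin t₁ t₂ t₃ x = (-(x 0 + x 2 / Real.sqrt 2) / 2) • t₁ + ((x 2 / Real.sqrt 2 + x 1) / 2) • t₂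
      + ((x 2 / Real.sqrt 2 - x 1) / 2) • t₃ := rfl

theorem norm_simLin (t₁ t₂ t₃ : E3) (h11 : inner ℝ t₁ t₁ = (4 : ℝ)) (h22 : inner ℝ t₂ t₂ = (4 : ℝ))
    (h33 : inner ℝ t₃ t₃ = (4 : ℝ)) (h12 : inner ℝ t₁ t₂ = (2 : ℝ)) (h13 : inner ℝ t₁ t₃ = (2 : ℝ))
    (h23 : inner ℝ t₂ t₃ = (2 : ℝ)) (x : E3) : ‖simLin t₁ t₂ t₃ x‖ = ‖x‖ := by
  rw [← sq_eq_sq₀ (norm_nonneg _) (norm_nonneg _), simLin_apply,
    norm_comb3 t₁ t₂ t₃ h11 h22 h33 h12 h13 h23, Crest.Agent.Helper9.Area.norm_sq_coord]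
  have h2 : Real.sqrt 2 * Real.sqrt 2 = 2 := Real.mul_self_sqrt (by norm_num)
  have h2pos : 0 < Real.sqrt 2 := Real.sqrt_pos.mpr (by norm_num)
  obtain ⟨s, hs⟩ : ∃ s : ℝ, x 2 = Real.sqrt 2 * s := ⟨x 2 / Real.sqrt 2, by field_simp⟩
  have hs' : x 2 / Real.sqrt 2 = s := by rw [hs]; field_simp
  rw [hs', hs]
  linear_combination (-s ^ 2) * h2

theorem inner_of_norms (d₁ d₂ : E3) (ℓ : ℝ) (h1 : ‖d₁‖ = ℓ) (h2 : ‖d₂‖ = ℓ)
    (h12 : ‖d₁ - d₂‖ = ℓ) : inner ℝ d₁ d₂ = ℓ ^ 2 / 2 := by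
  have := norm_sub_sq_real d₁ d₂
  rw [h1, h2, h12] at this
  linarith

theorem range_fin4 (w : Fin 4 → E3) : Set.range w = {w 0, w 1, w 2, w 3} := by
  ext x
  simp only [Set.mem_range, Set.mem_insert_iff, Set.mem_singleton_iff]
  constructor
  · rintro ⟨i, rfl⟩
    fin_cases i <;> simp
  · rintro (rfl | rfl | rfl | rfl) <;> exact ⟨_, rfl⟩

/-- **G4**: a regular tetrahedron is a similarity image of the standard one. -/
theorem exists_similarity (w : Fin 4 → E3) (ℓ : ℝ) (hℓ : 0 < ℓ)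
    (hw : ∀ i j, i ≠ j → dist (w i) (w j) = ℓ) :
    ∃ (A : E3 ≃ₗᵢ[ℝ] E3) (c₀ : E3),
      (fun x => c₀ + (ℓ / 2) • A x) '' (convexHull ℝ
        {!₂[1, 0, 0], !₂[-1, 0, 0], !₂[0, 1, Real.sqrt 2], !₂[0, -1, Real.sqrt 2]} : Set E3) =
        convexHull ℝ (Set.range w) := by
  have hℓ0 : ℓ ≠ 0 := hℓ.ne'
  have n1 : ‖w 1 - w 0‖ = ℓ := by rw [← dist_eq_norm]; exact hw 1 0 (by decide)
  have n2 : ‖w 2 - w 0‖ = ℓ := by rw [← dist_eq_norm]; exact hw 2 0 (by decide)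
  have n3 : ‖w 3 - w 0‖ = ℓ := by rw [← dist_eq_norm]; exact hw 3 0 (by decide)
  have n12 : ‖(w 1 - w 0) - (w 2 - w 0)‖ = ℓ := by
    rw [sub_sub_sub_cancel_right, ← dist_eq_norm]; exact hw 1 2 (by decide)
  have n13 : ‖(w 1 - w 0) - (w 3 - w 0)‖ = ℓ := by
    rw [sub_sub_sub_cancel_right, ← dist_eq_norm]; exact hw 1 3 (by decide)
  have n23 : ‖(w 2 - w 0) - (w 3 - w 0)‖ = ℓ := by
    rw [sub_sub_sub_cancel_right, ← dist_eq_norm]; exact hw 2 3 (by decide)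
  obtain ⟨t₁, ht₁⟩ : ∃ t : E3, t = (2 / ℓ) • (w 1 - w 0) := ⟨_, rfl⟩
  obtain ⟨t₂, ht₂⟩ : ∃ t : E3, t = (2 / ℓ) • (w 2 - w 0) := ⟨_, rfl⟩
  obtain ⟨t₃, ht₃⟩ : ∃ t : E3, t = (2 / ℓ) • (w 3 - w 0) := ⟨_, rfl⟩
  have hs1 : (ℓ / 2) • t₁ = w 1 - w 0 := by
    rw [ht₁, smul_smul]
    have : ℓ / 2 * (2 / ℓ) = 1 := by field_simp
    rw [this, one_smul]
  have hs2 : (ℓ / 2) • t₂ = w 2 - w 0 := by
    rw [ht₂, smul_smul]
    have : ℓ / 2 * (2 / ℓ) = 1 := by field_simp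
    rw [this, one_smul]
  have hs3 : (ℓ / 2) • t₃ = w 3 - w 0 := by
    rw [ht₃, smul_smul]
    have : ℓ / 2 * (2 / ℓ) = 1 := by field_simp
    rw [this, one_smul]
  have h11 : inner ℝ t₁ t₁ = (4 : ℝ) := by
    rw [ht₁, inner_smul_left, inner_smul_right, real_inner_self_eq_norm_sq, n1, conj_trivial]
    field_simp
    ring
  have h22 : inner ℝ t₂ t₂ = (4 : ℝ) := by
    rw [ht₂, inner_smul_left, inner_smul_right, real_inner_self_eq_norm_sq, n2, conj_trivial]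
    field_simp
    ring
  have h33 : inner ℝ t₃ t₃ = (4 : ℝ) := by
    rw [ht₃, inner_smul_left, inner_smul_right, real_inner_self_eq_norm_sq, n3, conj_trivial]
    field_simp
    ring
  have h12 : inner ℝ t₁ t₂ = (2 : ℝ) := by
    rw [ht₁, ht₂, inner_smul_left, inner_smul_right, inner_of_norms _ _ ℓ n1 n2 n12, conj_trivial]
    field_simp
  have h13 : inner ℝ t₁ t₃ = (2 : ℝ) := by
    rw [ht₁, ht₃, inner_smul_left, inner_smul_right, inner_of_norms _ _ ℓ n1 n3 n13, conj_trivial]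
    field_simp
  have h23 : inner ℝ t₂ t₃ = (2 : ℝ) := by
    rw [ht₂, ht₃, inner_smul_left, inner_smul_right, inner_of_norms _ _ ℓ n2 n3 n23, conj_trivial]
    field_simp
  let li : E3 →ₗᵢ[ℝ] E3 :=
    { toLinearMap := simLin t₁ t₂ t₃
      norm_map' := norm_simLin t₁ t₂ t₃ h11 h22 h33 h12 h13 h23 }
  let A : E3 ≃ₗᵢ[ℝ] E3 := li.toLinearIsometryEquiv rfl
  have hA : ∀ x, A x = simLin t₁ t₂ t₃ x := fun x => rfl
  have h2pos : Real.sqrt 2 ≠ 0 := (Real.sqrt_pos.mpr (by norm_num)).ne'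
  have a0 : A !₂[1, 0, 0] = (-(1 / 2 : ℝ)) • t₁ := by
    rw [hA, simLin_apply]
    simp
    module
  have a1 : A !₂[-1, 0, 0] = (1 / 2 : ℝ) • t₁ := by
    rw [hA, simLin_apply]
    simp
  have a2 : A !₂[0, 1, Real.sqrt 2] = (-(1 / 2 : ℝ)) • t₁ + t₂ := by
    rw [hA, simLin_apply]
    simp [h2pos]
    module
  have a3 : A !₂[0, -1, Real.sqrt 2] = (-(1 / 2 : ℝ)) • t₁ + t₃ := by
    rw [hA, simLin_apply]
    simp [h2pos]
    module
  refine ⟨A, w 0 - (ℓ / 2) • A !₂[1, 0, 0], ?_⟩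
  let g : E3 →ᵃ[ℝ] E3 := AffineMap.const ℝ E3 (w 0 - (ℓ / 2) • A !₂[1, 0, 0]) +
    ((ℓ / 2) • A.toLinearEquiv.toLinearMap).toAffineMap
  have hg : (fun x => (w 0 - (ℓ / 2) • A !₂[1, 0, 0]) + (ℓ / 2) • A x) = g := by
    funext x
    simp [g]
  have hgx : ∀ x, g x = (w 0 - (ℓ / 2) • A !₂[1, 0, 0]) + (ℓ / 2) • A x := fun x => by
    rw [← hg]
  rw [hg, AffineMap.image_convexHull, range_fin4, Set.image_insert_eq, Set.image_insert_eq,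
    Set.image_insert_eq, Set.image_singleton]
  have e0 : g !₂[1, 0, 0] = w 0 := by
    rw [hgx]
    abel
  have e1 : g !₂[-1, 0, 0] = w 1 := by
    have : w 1 = w 0 + (ℓ / 2) • t₁ := by rw [hs1]; abel
    rw [hgx, a0, a1, this]
    module
  have e2 : g !₂[0, 1, Real.sqrt 2] = w 2 := by
    have : w 2 = w 0 + (ℓ / 2) • t₂ := by rw [hs2]; abel
    rw [hgx, a0, a2, this]
    module
  have e3 : g !₂[0, -1, Real.sqrt 2] = w 3 := by
    have : w 3 = w 0 + (ℓ / 2) • t₃ := by rw [hs3]; abel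
    rw [hgx, a0, a3, this]
    module
  rw [e0, e1, e2, e3]

end Crest.Agent.Lead
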